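import Vale.Agent.P011UF2.Defs

/-!
The block form of descent data with a symmetric idempotent.
-/

open Matrix Module

namespace Vale.Agent.P011UF2C

open Vale.Agent.P011LD Vale.Agent.P011LE Vale.Agent.P011UF2

variable {k K : Type} [Field k] [Field K] [Algebra k K] {n m : Type} [Fintype n] [DecidableEq n]
  [Fintype m] [DecidableEq m] {o : (K ≃ₐ[k] K) →* ℤˣ} {σ τ : K ≃ₐ[k] K}

theorem st_in (h : o σ = 1) (g : GL n K) : (st o σ g).1 = g.1.map σ := by
  rw [st, if_pos h]
  rfl

theorem st_out (h : o σ ≠ 1) (g : GL n K) : (st o σ g).1 = (g⁻¹.1.map σ)ᵀ := by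
  rw [st, if_neg h]
  rfl

theorem st_out' (h : o σ ≠ 1) (g : GL n K) : (st o σ g)⁻¹.1 = (g.1.map σ)ᵀ := by
  rw [← map_inv, st_out h, inv_inv]

theorem st_mul (σ τ : K ≃ₐ[k] K) (g : GL n K) : st o (σ * τ) g = st o σ (st o τ g) := by
  unfold st
  rw [map_mul]
  rcases Int.units_eq_one_or (o σ) with h | h <;> rcases Int.units_eq_one_or (o τ) with h' | h' <;>
    rw [h, h'] <;> exact Units.ext rfl

theorem o_io (h : o σ = 1) (h' : o τ ≠ 1) : o (σ * τ) ≠ 1 := by rwa [map_mul, h, one_mul]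
theorem o_oi (h : o σ ≠ 1) (h' : o τ = 1) : o (σ * τ) ≠ 1 := by rwa [map_mul, h', mul_one]
theorem o_ii (h : o σ = 1) (h' : o τ = 1) : o (σ * τ) = 1 := by rw [map_mul, h, h', mul_one]
theorem o_oo (h : o σ ≠ 1) (h' : o τ ≠ 1) : o (σ * τ) = 1 := by
  rw [map_mul, (Int.units_eq_one_or _).resolve_left h, (Int.units_eq_one_or _).resolve_left h']
  rfl

theorem det_map (σ : K ≃ₐ[k] K) (M : Matrix n n K) : (M.map σ).det = σ M.det :=
  (RingHom.map_det (σ : K →+* K) M).symm

theorem det_ne (g : GL n K) : g.1.det ≠ 0 := (GeneralLinearGroup.det g).ne_zero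

theorem det_inv (g : GL n K) : g⁻¹.1.det = g.1.det⁻¹ :=
  eq_inv_of_mul_eq_one_left (by rw [← det_mul, Units.inv_mul, det_one])

theorem det_in (h : o σ = 1) (g : GL n K) : (st o σ g).1.det = σ g.1.det := by
  rw [st_in h, det_map]

theorem det_out (h : o σ ≠ 1) (g : GL n K) : (st o σ g).1.det = (σ g.1.det)⁻¹ := by
  rw [st_out h, det_transpose, det_map, det_inv, map_inv₀]

/-- The block diagonal matrices. -/
def bd (d : GL m K) (d' : GL n K) : GL (m ⊕ n) K :=
  ⟨fromBlocks d.1 0 0 d'.1, fromBlocks d⁻¹.1 0 0 d'⁻¹.1, by simp [fromBlocks_multiply],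
    by simp [fromBlocks_multiply]⟩

theorem bd_val (d : GL m K) (d' : GL n K) : (bd d d').1 = fromBlocks d.1 0 0 d'.1 := rfl

theorem bd_mul (a b : GL m K) (a' b' : GL n K) : bd a a' * bd b b' = bd (a * b) (a' * b') :=
  Units.ext (by simp [bd_val, fromBlocks_multiply])

theorem st_bd (d : GL m K) (d' : GL n K) : st o σ (bd d d') = bd (st o σ d) (st o σ d') :=
  Units.ext <| by
    by_cases h : o σ = 1
    · rw [bd_val, st_in h, st_in h, st_in h, bd_val, fromBlocks_map]
      simp
    · rw [bd_val, st_out h, st_out h, st_out h]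
      change ((fromBlocks d⁻¹.1 0 0 d'⁻¹.1).map σ)ᵀ = _
      rw [fromBlocks_map, fromBlocks_transpose]
      simp

theorem ex_bd (N : GL (m ⊕ n) K) (h : N.1 * fromBlocks 1 0 0 0 = fromBlocks 1 0 0 0 * N.1) :
    ∃ d d', N = bd d d' := by
  have e := (fromBlocks_toBlocks N.1).symm
  rw [e, fromBlocks_multiply, fromBlocks_multiply, fromBlocks_inj] at h
  simp only [Matrix.mul_one, Matrix.mul_zero, add_zero, Matrix.one_mul, Matrix.zero_mul] at h
  rw [← h.2.1, h.2.2.1] at e
  have d := det_ne N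
  rw [e, det_fromBlocks_zero₂₁] at d
  exact ⟨.mkOfDetNeZero _ (left_ne_zero_of_mul d), .mkOfDetNeZero _ (right_ne_zero_of_mul d),
    Units.ext e⟩

/-- The normal form of an idempotent. -/
theorem ex_nf {E : Matrix (Fin 3 ⊕ Fin 3) (Fin 3 ⊕ Fin 3) K} (h : E * E = E) (r : E.rank = 3) :
    ∃ y : GL (Fin 3 ⊕ Fin 3) K, E * y.1 = y.1 * fromBlocks 1 0 0 0 := by
  have i : IsIdempotentElem E.mulVecLin := by
    rw [IsIdempotentElem, Module.End.mul_eq_comp, ← mulVecLin_mul, h]
  have r' : finrank K (LinearMap.ker E.mulVecLin) = 3 := by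
    have := E.mulVecLin.finrank_range_add_finrank_ker
    rw [show finrank K (LinearMap.range E.mulVecLin) = 3 from r] at this
    simp only [finrank_fintype_fun_eq_card, Fintype.card_sum, Fintype.card_fin] at this
    omega
  let b := ((finBasisOfFinrankEq K _ r).prod (finBasisOfFinrankEq K _ r')).map
    (Submodule.prodEquivOfIsCompl _ _ (LinearMap.IsIdempotentElem.isCompl i))
  refine ⟨((linearIndependent_cols_iff_isUnit (A := of fun i j => b j i)).1
    b.linearIndependent).unit, Matrix.ext fun a j => ?_⟩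
  change (E *ᵥ b j) a = ((of fun i j => b j i) * fromBlocks 1 0 0 0 : Matrix _ _ K) a j
  rcases j with j | j
  · have : E *ᵥ b (.inl j) = b (.inl j) := by
      refine (LinearMap.IsIdempotentElem.mem_range_iff i).1 ?_
      simp [b]
    rw [this]
    simp [mul_apply, one_apply]
  · have : E *ᵥ b (.inr j) = 0 := by
      change b (.inr j) ∈ LinearMap.ker E.mulVecLin
      simp [b]
    rw [this]
    simp [mul_apply]

/-- The change of the index set. -/
def re (e : m ≃ n) : GL n K →* GL m K := Units.map (reindexAlgEquiv K K e.symm).toMonoidHom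

theorem re_val (e : m ≃ n) (g : GL n K) : (re e g).1 = g.1.submatrix e e := rfl

theorem st_re (e : m ≃ n) (g : GL n K) : st o σ (re e g) = re e (st o σ g) := by
  unfold st
  split_ifs <;> exact Units.ext rfl

/-- **The block form.** -/
theorem blk : BLK := by
  intro k K _ _ _ _ _ n _ _ hn o M κ h E ⟨h1, h2, h3⟩
  obtain ⟨e⟩ : Nonempty (Fin 3 ⊕ Fin 3 ≃ n) := Fintype.card_eq.1 (by simp [hn])
  obtain ⟨y, hy⟩ := ex_nf (E := E.submatrix e e) (by rw [submatrix_mul_equiv, h1])
    (by rw [rank_submatrix, h2])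
  have hE : E.submatrix e e = y.1 * fromBlocks 1 0 0 0 * y⁻¹.1 := by
    rw [← hy, Units.mul_inv_cancel_right]
  have hP : ∀ σ : K ≃ₐ[k] K, (fromBlocks 1 0 0 0 : Matrix (Fin 3 ⊕ Fin 3) (Fin 3 ⊕ Fin 3) K).map σ =
      fromBlocks 1 0 0 0 := fun σ => by rw [fromBlocks_map, map_one']; simp
  have key : ∀ σ, ∃ d d', y⁻¹ * re e (M σ) * st o σ y = bd d d' := fun σ => by
    have a : (re e (M σ)).1 * ((st o σ y).1 * fromBlocks 1 0 0 0 * (st o σ y)⁻¹.1) =
        E.submatrix e e * (re e (M σ)).1 := by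
      have a := h3 σ
      rw [re_val, submatrix_mul_equiv]
      by_cases s : o σ = 1
      · rw [ac, if_pos s, if_pos s, Units.mul_inv_eq_iff_eq_mul] at a
        rw [← a, ← submatrix_mul_equiv _ _ _ e, submatrix_map, hE, map_mul', map_mul', hP,
          ← map_inv, st_in s, st_in s]
      · rw [ac, if_neg s, if_neg s, sub_right_inj, Units.mul_inv_eq_iff_eq_mul] at a
        rw [← a, ← submatrix_mul_equiv _ _ _ e, ← transpose_submatrix, submatrix_map, hE, map_mul',
          map_mul', hP, st_out' s, st_out s, transpose_mul, transpose_mul, fromBlocks_transpose]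
        simp only [transpose_one, transpose_zero, Matrix.mul_assoc]
    refine ex_bd _ ?_
    rw [← Matrix.mul_assoc, Units.mul_inv_eq_iff_eq_mul, hE] at a
    simp only [Units.val_mul, Matrix.mul_assoc] at a ⊢
    rw [a, Units.inv_mul_cancel_left]
  choose d d' hd using key
  have dy := det_ne y
  refine ⟨y.1.submatrix e.symm id, y⁻¹.1.submatrix id e.symm, d, d',
    fun σ => κ σ * if o σ = 1 then 1 else σ y.1.det, ?_, ?_, ⟨fun σ τ => ?_, fun σ => ?_, ?_⟩,
    fun σ => ?_⟩
  · rw [← submatrix_mul _ _ _ _ _ Function.bijective_id, Units.mul_inv, submatrix_one_equiv]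
  · rw [submatrix_mul_equiv, Units.inv_mul, submatrix_id_id]
  · obtain ⟨z, z1, z2⟩ := h.mul σ τ
    have a : (bd (d σ * st o σ (d τ)) (d' σ * st o σ (d' τ))).1 =
        z • (bd (d (σ * τ)) (d' (σ * τ))).1 := by
      have : y⁻¹ * re e (M σ) * st o σ y * st o σ (y⁻¹ * re e (M τ) * st o τ y) =
          y⁻¹ * re e (M σ * st o σ (M τ)) * st o (σ * τ) y := by
        simp only [map_mul, map_inv, st_re, st_mul, mul_assoc, mul_inv_cancel_left]
      rw [← bd_mul, ← st_bd, ← hd, ← hd, ← hd, this]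
      simp only [Units.val_mul, re_val, z1, submatrix_smul, Pi.smul_apply, Matrix.mul_smul,
        Matrix.smul_mul]
    rw [bd_val, bd_val, fromBlocks_smul, fromBlocks_inj] at a
    refine ⟨z, a.1, a.2.2.2, ?_⟩
    have b : (d τ).1.det * (d' τ).1.det = y.1.det⁻¹ * (M τ).1.det * (st o τ y).1.det := by
      rw [← det_fromBlocks_zero₂₁ _ 0, ← bd_val, ← hd, Units.val_mul, Units.val_mul, det_mul,
        det_mul, det_inv, re_val, det_submatrix_equiv_self]
    have c1 := (_root_.map_ne_zero σ).2 dy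
    have c2 := (_root_.map_ne_zero σ).2 ((_root_.map_ne_zero τ).2 dy)
    rw [b, ← mul_assoc _ (κ (σ * τ)), ← z2]
    by_cases s : o σ = 1 <;> by_cases t : o τ = 1
    · simp only [s, t, o_ii s t, if_true, mul_one]
    · rw [if_neg (o_io s t)]
      simp only [s, t, if_true, if_false, mul_one, map_mul, AlgEquiv.mul_apply]
      ring
    · rw [if_neg (o_oi s t)]
      simp only [s, t, if_true, if_false, mul_one, map_mul, map_inv₀, det_in t, AlgEquiv.mul_apply]
      field_simp
    · rw [if_pos (o_oo s t)]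
      simp only [s, t, if_false, mul_one, map_mul, map_inv₀, det_out t]
      field_simp
  · refine mul_ne_zero (h.ne σ) ?_
    split_ifs
    exacts [one_ne_zero, (_root_.map_ne_zero σ).2 dy]
  · refine (h.cont.and (Op.mat ⊤ y.1)).imp fun σ _ ⟨⟨s, a, b⟩, c⟩ => ?_
    have := congrArg Units.val (hd σ)
    rw [a, map_one, mul_one, Units.val_mul, st_in s, c, Units.inv_mul, bd_val, ← fromBlocks_one,
      fromBlocks_inj] at this
    exact ⟨s, Units.ext this.1.symm, Units.ext this.2.2.2.symm, by rw [b, if_pos s, mul_one]⟩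
  · have a : (if o σ = 1 then (y.1.submatrix e.symm id).map σ else
        ((y⁻¹.1.submatrix id e.symm).map σ)ᵀ) = (st o σ y).1.submatrix e.symm id := by
      split_ifs with s
      · rw [st_in s]; rfl
      · rw [st_out s]; rfl
    have b : (M σ).1 = (re e (M σ)).1.submatrix e.symm e.symm := by
      simp [re_val]
    rw [a, b, submatrix_mul_equiv, ← bd_val, ← hd, ← submatrix_id_id (y⁻¹ * _ * _ : GL _ K).1,
      ← submatrix_mul _ _ _ _ _ Function.bijective_id, ← Units.val_mul, ← Units.val_mul, mul_assoc,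
      mul_inv_cancel_left]

end Vale.Agent.P011UF2C
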