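import Vale.Agent.P011UF2C.Blk

/-!
The discriminant of the comparison of the two blocks is a norm.
-/

open Matrix

namespace Vale.Agent.P011UF2C

open Vale.Agent.P011LD Vale.Agent.P011LE Vale.Agent.P011UF2

variable {k K : Type} [Field k] [Field K] [Algebra k K] {n : Type} [Fintype n] [DecidableEq n]

theorem quot_eq {a b a' b' : GL n K} {z : K} (h : a.1 = z • b.1) (h' : a'.1 = z • b'.1) :
    b * b'⁻¹ = a * a'⁻¹ := by
  rw [mul_inv_eq_iff_eq_mul, mul_assoc, ← inv_mul_eq_iff_eq_mul]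
  refine Units.ext ?_
  rw [Units.val_mul, Units.val_mul, Units.inv_mul_eq_iff_eq_mul, ← Matrix.mul_assoc, h,
    Matrix.smul_mul, Matrix.smul_mul, Matrix.mul_assoc, ← Matrix.mul_smul, ← Matrix.mul_smul, ← h',
    Units.inv_mul, Matrix.mul_one]

/-- **The discriminant is a norm.** -/
theorem dsc : DSC := by
  intro k K _ _ _ _ _ o d d' κ h ⟨s0, hs0⟩
  obtain ⟨x, hx⟩ := conj_of (Γ := o.ker) d d' (fun σ s τ _ => (h.mul σ τ).imp fun z e =>
    ⟨st_in s (d τ) ▸ e.1, st_in s (d' τ) ▸ e.2.1⟩) (h.cont.elim fun S hS => ⟨S, fun σ _ e =>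
      ⟨1, by simp [(hS σ trivial e).2.1], by simp [(hS σ trivial e).2.2.1]⟩⟩)
  obtain ⟨D, hD⟩ : ∃ D : (K ≃ₐ[k] K) → GL (Fin 3) K, ∀ σ, D σ = x * d σ * (st o σ x)⁻¹ :=
    ⟨_, fun _ => rfl⟩
  have D1 : ∀ σ, o σ = 1 → D σ = d' σ := fun σ s => by
    rw [hD, mul_inv_eq_iff_eq_mul]
    exact Units.ext ((hx σ s).trans (by rw [Units.val_mul, st_in s]))
  have D2 : ∀ σ τ, D (σ * τ) * (d' (σ * τ))⁻¹ =
      D σ * st o σ (D τ) * (d' σ * st o σ (d' τ))⁻¹ := fun σ τ => by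
    obtain ⟨z, z1, z2, -⟩ := h.mul σ τ
    refine quot_eq ?_ z2
    have : D σ * st o σ (D τ) = x * (d σ * st o σ (d τ)) * (st o (σ * τ) x)⁻¹ := by
      simp only [hD, map_mul, map_inv, st_mul, mul_assoc, inv_mul_cancel_left]
    rw [this, hD, Units.val_mul, Units.val_mul, z1]
    simp only [Units.val_mul, Matrix.mul_smul, Matrix.smul_mul]
  obtain ⟨F, hF⟩ : ∃ F, F = D s0 * (d' s0)⁻¹ := ⟨_, rfl⟩
  have dec : ∀ s, o s ≠ 1 → o (s0⁻¹ * s) = 1 := fun s hs =>
    o_oo (by rwa [map_inv, Ne, inv_eq_one]) hs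
  have F1 : ∀ s, o s ≠ 1 → D s = F * d' s := fun s hs => by
    have := D2 s0 (s0⁻¹ * s)
    rw [mul_inv_cancel_left, D1 _ (dec s hs), _root_.mul_inv_rev, mul_assoc,
      mul_inv_cancel_left, ← hF] at this
    exact mul_inv_eq_iff_eq_mul.1 this
  have F2 : ∀ σ, o σ = 1 → F * d' σ = d' σ * st o σ F := fun σ s => by
    have := D2 σ s0
    rw [F1 _ (o_io s hs0), F1 _ hs0, D1 σ s, mul_inv_cancel_right, map_mul, ← mul_assoc,
      _root_.mul_inv_rev, mul_assoc, mul_inv_cancel_left] at this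
    exact eq_mul_inv_iff_mul_eq.1 this
  have F3 : ∀ s, o s ≠ 1 → F * d' s = d' s * (st o s F)⁻¹ := fun s hs => by
    have := D2 s s
    rw [D1 _ (o_oo hs hs), mul_inv_cancel, F1 s hs, map_mul, ← mul_assoc, _root_.mul_inv_rev,
      mul_assoc, mul_inv_cancel_left, eq_mul_inv_iff_mul_eq, one_mul] at this
    exact eq_mul_inv_iff_mul_eq.2 this.symm
  refine ⟨x, -F.1, fun σ s => (hx σ s).symm, fun s hs => ?_, ⟨fun σ s => ?_, fun s hs => ?_⟩, ?_⟩
  · rw [Matrix.neg_mul, ← Units.val_mul, ← F1 s hs, hD, Units.val_mul, Units.val_mul, st_out' hs]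
  · rw [Matrix.neg_mul, ← Units.val_mul, F2 σ s, Units.val_mul, st_in s,
      Matrix.map_neg _ (map_neg σ), Matrix.mul_neg]
  · rw [Matrix.neg_mul, ← Units.val_mul, F3 s hs, Units.val_mul, st_out' hs,
      Matrix.map_neg _ (map_neg s), transpose_neg, Matrix.mul_neg]
  have dt : ∀ σ τ, ∃ w : K, (d σ).1.det * (st o σ (d τ)).1.det = w * (d (σ * τ)).1.det ∧
      (d' σ).1.det * (st o σ (d' τ)).1.det = w * (d' (σ * τ)).1.det ∧
      w * κ σ * σ (κ τ * if o σ = 1 then 1 else (d τ).1.det * (d' τ).1.det) =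
        (if o σ = 1 ∨ o τ = 1 then 1 else -1) * κ (σ * τ) := fun σ τ => by
    obtain ⟨z, z1, z2, z3⟩ := h.mul σ τ
    refine ⟨z ^ 3, ?_, ?_, z3⟩
    · rw [← det_mul, ← Units.val_mul, z1, det_smul, Fintype.card_fin]
    · rw [← det_mul, ← Units.val_mul, z2, det_smul, Fintype.card_fin]
  have i1 : ∀ σ τ, o σ = 1 → κ (σ * τ) * (d (σ * τ)).1.det =
      κ σ * (d σ).1.det * σ (κ τ * (d τ).1.det) ∧ κ (σ * τ) * (d' (σ * τ)).1.det =
        κ σ * (d' σ).1.det * σ (κ τ * (d' τ).1.det) := fun σ τ s => by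
    obtain ⟨w, w1, w2, w3⟩ := dt σ τ
    rw [det_in s] at w1 w2
    simp only [s, if_true, true_or, mul_one, one_mul] at w3
    simp only [← w3, map_mul]
    exact ⟨by linear_combination -(κ σ * σ (κ τ)) * w1, by linear_combination -(κ σ * σ (κ τ)) * w2⟩
  have i2 : ∀ σ τ, o σ ≠ 1 → (if o τ = 1 then 1 else -1) * (κ (σ * τ) * (d (σ * τ)).1.det) =
      κ σ * (d σ).1.det * σ (κ τ * (d' τ).1.det) ∧
      (if o τ = 1 then 1 else -1) * (κ (σ * τ) * (d' (σ * τ)).1.det) =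
        κ σ * (d' σ).1.det * σ (κ τ * (d τ).1.det) := fun σ τ s => by
    obtain ⟨w, w1, w2, w3⟩ := dt σ τ
    rw [det_out s, mul_inv_eq_iff_eq_mul₀ ((_root_.map_ne_zero σ).2 (det_ne _))] at w1 w2
    simp only [s, if_false, false_or] at w3
    simp only [← mul_assoc, ← w3, map_mul]
    exact ⟨by linear_combination -(κ σ * σ (κ τ) * σ (d' τ).1.det) * w1,
      by linear_combination -(κ σ * σ (κ τ) * σ (d τ).1.det) * w2⟩
  obtain ⟨a, a0, ha⟩ := h90_one (Γ := o.ker) (fun σ => κ σ * (d' σ).1.det)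
    (fun σ s τ _ => (i1 σ τ s).2) (h.cont.elim fun S hS => ⟨S, fun σ _ e => by
      simp [(hS σ trivial e).2.2.1, (hS σ trivial e).2.2.2]⟩)
  have x0 := det_ne x
  have hb : ∀ σ, o σ = 1 → κ σ * (d σ).1.det * σ (a / x.1.det) = a / x.1.det := fun σ s => by
    have e := congrArg det (hx σ s)
    have := (_root_.map_ne_zero σ).2 x0
    rw [det_mul, det_mul, det_map] at e
    rw [map_div₀]
    field_simp
    linear_combination (κ σ * σ a) * e + σ x.1.det * ha σ s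
  obtain ⟨z, hz⟩ : ∃ z, κ s0 * (d s0).1.det * s0 a = z * (a / x.1.det) :=
    ⟨_, (div_mul_cancel₀ _ (div_ne_zero a0 x0)).symm⟩
  have z1 : ∀ s, o s ≠ 1 → κ s * (d s).1.det * s a = z * (a / x.1.det) := fun s hs => by
    have e := (i2 s0 (s0⁻¹ * s) hs0).1
    have f := congrArg s0 (ha _ (dec s hs))
    rw [mul_inv_cancel_left, if_pos (dec s hs), one_mul] at e
    rw [map_mul, ← AlgEquiv.mul_apply s0 (s0⁻¹ * s), mul_inv_cancel_left] at f
    rw [e, mul_assoc, f, hz]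
  refine ⟨z, fun e => ?_, fun σ s => ?_, fun s hs => ?_⟩
  · rw [e, zero_mul] at hz
    exact mul_ne_zero (mul_ne_zero (h.ne _) (det_ne _)) ((_root_.map_ne_zero s0).2 a0) hz
  · have e := z1 _ (o_io s hs0)
    rw [(i1 σ s0 s).1, AlgEquiv.mul_apply, mul_assoc, ← map_mul, hz, map_mul, mul_left_comm,
      hb σ s] at e
    exact mul_right_cancel₀ (div_ne_zero a0 x0) e
  · have e1 := z1 s hs
    have e2 := (i2 s s hs).2
    have e3 := ha _ (o_oo hs hs)
    have e4 := congrArg s e1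
    have e5 := congrArg (fun g : GL (Fin 3) K => g.1.det) ((hD s).symm.trans (F1 s hs))
    simp only [Units.val_mul, det_mul, det_inv, det_out hs, inv_inv] at e5
    rw [if_neg hs] at e2
    rw [AlgEquiv.mul_apply] at e3
    rw [map_mul, map_mul s z, map_div₀] at e4
    have n1 := (_root_.map_ne_zero s).2 x0
    have n2 := (_root_.map_ne_zero s).2 a0
    rw [det_neg, Fintype.card_fin]
    rw [← mul_div_assoc, eq_div_iff x0] at e1
    rw [← mul_div_assoc, eq_div_iff n1] at e4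
    refine mul_right_cancel₀ (mul_ne_zero (mul_ne_zero (mul_ne_zero (h.ne s) (det_ne (d' s))) n2)
      a0) ?_
    linear_combination (κ s * s a * a) * e5 - (a * s x.1.det) * e1 +
      (z * a * κ s * (d' s).1.det) * e4 + (z * a * s (s a) * s x.1.det) * e2 +
      (z * a * s x.1.det) * e3

end Vale.Agent.P011UF2C
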